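import Vale.Agent.P293.Glue
import Vale.Agent.P293.NotAffine
import Vale.Agent.P293.StableMain

/-!
A stable coordinate which is not a coordinate.
-/

namespace Vale.Agent.Results.P295.StableCoordinate

open Vale.Agent.P293

theorem result : ∃ (n : ℕ) (f : MvPolynomial (Fin n) ℂ),
    (∃ m : ℕ, 1 ≤ m ∧
      ∃ (σ : MvPolynomial (Fin (n + m)) ℂ ≃ₐ[ℂ] MvPolynomial (Fin (n + m)) ℂ) (i : Fin (n + m)),
        σ (MvPolynomial.rename (Fin.castAdd m) f) = MvPolynomial.X i) ∧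
      ¬ ∃ (σ : MvPolynomial (Fin n) ℂ ≃ₐ[ℂ] MvPolynomial (Fin n) ℂ) (i : Fin n),
        σ f = MvPolynomial.X i := by
  obtain ⟨R, hR⟩ := krRing_stably_affine
  obtain ⟨N, B, _, _, -, -, ⟨e⟩, hB⟩ := cancellation_fails_of_stable 3 R krRing_not_affine hR
  obtain ⟨h1, h2⟩ := stable_coordinate_of_cancellation_fails N e hB
  exact ⟨N + 1, e Polynomial.X, ⟨1, le_rfl, h1⟩, h2⟩

end Vale.Agent.Results.P295.StableCoordinate
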